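import Vale.Agent.P236A.Basic

/-!
# P236, block OP: homogeneity of the right unit, the coproduct and the action
-/

noncomputable section

namespace Vale.Agent.P236O

open Vale.Agent.P236A Vale.Agent.P236B MvPolynomial

/-- A family of additive subgroups which is closed under products. -/
structure Gd (B : Type) [CommRing B] where
  /-- the homogeneous elements -/
  𝒜 : ℤ → AddSubgroup B
  one_mem : (1 : B) ∈ 𝒜 0
  mul_mem : ∀ {i j : ℤ} {a a' : B}, a ∈ 𝒜 i → a' ∈ 𝒜 j → a * a' ∈ 𝒜 (i + j)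

section Gd

variable {B B' : Type} [CommRing B] [CommRing B'] (G : Gd B)

theorem Gd.cast {i j : ℤ} {a : B} (h : a ∈ G.𝒜 i) (e : j = i) : a ∈ G.𝒜 j := e ▸ h

theorem Gd.pow_mem {i : ℤ} {a : B} (h : a ∈ G.𝒜 i) (n : ℕ) : a ^ n ∈ G.𝒜 (n • i) := by
  induction n with
  | zero => simpa using G.one_mem
  | succ n ih =>
    rw [pow_succ, succ_nsmul]
    exact G.mul_mem ih h

theorem Gd.prod_mem {α : Type} (s : Finset α) {f : α → B} {w : α → ℤ}
    (h : ∀ i ∈ s, f i ∈ G.𝒜 (w i)) : ∏ i ∈ s, f i ∈ G.𝒜 (∑ i ∈ s, w i) := by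
  classical
  induction s using Finset.induction_on with
  | empty => simpa using G.one_mem
  | insert a s ha ih =>
    rw [Finset.prod_insert ha, Finset.sum_insert ha]
    exact G.mul_mem (h a (Finset.mem_insert_self _ _))
      (ih fun i hi => h i (Finset.mem_insert_of_mem hi))

theorem Gd.intCast_mem (n : ℤ) : (n : B) ∈ G.𝒜 0 := by
  rw [← zsmul_one]
  exact zsmul_mem G.one_mem n

theorem Gd.eval₂_mem {σ : Type} (φ : B' →+* B) {f : σ → B} {W : σ → ℤ} (hf : ∀ i, f i ∈ G.𝒜 (W i))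
    {γ : MvPolynomial σ B'} {w : ℤ} (h : ∀ d, φ (coeff d γ) ∈ G.𝒜 (w - Finsupp.weight W d)) :
    eval₂Hom φ f γ ∈ G.𝒜 w := by
  rw [γ.as_sum, map_sum]
  refine sum_mem fun d _ => ?_
  rw [eval₂Hom_monomial]
  refine G.cast (G.mul_mem (h d) (G.prod_mem d.support (w := fun i => d i • W i)
    fun i _ => G.pow_mem (hf i) _)) ?_
  rw [Finsupp.weight_apply, Finsupp.sum, sub_add_cancel]

theorem Gd.eval₂_mem_of_hom {σ : Type} (φ : B' →+* B) (hφ : ∀ r, φ r ∈ G.𝒜 0) {f : σ → B}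
    {W : σ → ℤ} (hf : ∀ i, f i ∈ G.𝒜 (W i)) {γ : MvPolynomial σ B'} {w : ℤ}
    (h : IsWeightedHomogeneous W γ w) : eval₂Hom φ f γ ∈ G.𝒜 w :=
  G.eval₂_mem φ hf fun d => by
    by_cases hd : Finsupp.weight W d = w
    · rw [hd, sub_self]
      exact hφ _
    · rw [h.coeff_eq_zero d hd, map_zero]
      exact zero_mem _

variable (p : ℕ)

theorem mz_add (J L : ℕ →₀ ℕ) : mz p (J + L) = mz p J + mz p L := map_add _ _ _

theorem mz_zero : mz p 0 = 0 := map_zero _

theorem mz_single (i : ℕ) : mz p (Finsupp.single i 1) = wz p i := by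
  rw [mz, Finsupp.weight_single, one_smul]

/-- the grading of the polynomial ring -/
def Gd.poly : Gd (MvPolynomial ℕ B) where
  𝒜 w :=
    { carrier := {γ | ∀ L, coeff L γ ∈ G.𝒜 (w - mz p L)}
      zero_mem' := fun L => by simp
      add_mem' := fun {a b} ha hb L => by
        rw [coeff_add]
        exact add_mem (ha L) (hb L)
      neg_mem' := fun {a} ha L => by
        rw [coeff_neg]
        exact neg_mem (ha L) }
  one_mem := fun L => by
    classical
    rw [coeff_one]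
    split_ifs with h
    · subst h
      rw [mz_zero, sub_zero]
      exact G.one_mem
    · exact zero_mem _
  mul_mem := fun {i j a b} ha hb L => by
    classical
    rw [coeff_mul]
    refine sum_mem fun x hx => G.cast (G.mul_mem (ha x.1) (hb x.2)) ?_
    rw [← Finset.HasAntidiagonal.mem_antidiagonal.1 hx, mz_add]
    ring

theorem Gd.mem_poly {w : ℤ} {γ : MvPolynomial ℕ B} :
    γ ∈ (G.poly p).𝒜 w ↔ ∀ L, coeff L γ ∈ G.𝒜 (w - mz p L) := Iff.rfl

theorem Gd.monomial_mem {w w' : ℤ} {a : B} (h : a ∈ G.𝒜 w) (J : ℕ →₀ ℕ) (e : w' = w + mz p J) :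
    monomial J a ∈ (G.poly p).𝒜 w' := fun L => by
  classical
  rw [coeff_monomial]
  split_ifs with hL
  · subst hL
    exact G.cast h (by rw [e, add_sub_cancel_right])
  · exact zero_mem _

theorem Gd.C_mem {w : ℤ} {a : B} (h : a ∈ G.𝒜 w) : C a ∈ (G.poly p).𝒜 w :=
  G.monomial_mem p h 0 (by rw [mz_zero, add_zero])

theorem Gd.X_mem (i : ℕ) : X i ∈ (G.poly p).𝒜 (wz p i) :=
  G.monomial_mem p G.one_mem _ (by rw [mz_single, zero_add])

theorem Gd.lin_mem {ξ : (ℕ →₀ ℕ) → B} {u w : ℤ} (hξ : ∀ L, ξ L ∈ G.𝒜 (mz p L + u))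
    {q : MvPolynomial ℕ B} (hq : q ∈ (G.poly p).𝒜 w) : lin ξ q ∈ G.𝒜 (w + u) := by
  rw [lin_apply]
  exact sum_mem fun L _ => G.cast (G.mul_mem (hq L) (hξ L)) (by ring)

end Gd

section Univ

theorem hom_of_scale {σ : Type} (n : σ → ℕ) (P : MvPolynomial σ ℤ) (m : ℕ)
    (h : eval₂Hom (Int.castRingHom (MvPolynomial σ ℚ)) (fun i => C 2 ^ n i * X i) P =
      C 2 ^ m * toQ σ P) : IsWeightedHomogeneous (fun i => (n i : ℤ)) P m := by
  classical
  have key : ∀ (Q : MvPolynomial σ ℤ) (d : σ →₀ ℕ), coeff d (eval₂Hom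
      (Int.castRingHom (MvPolynomial σ ℚ)) (fun i => C 2 ^ n i * X i) Q) =
        2 ^ Finsupp.weight n d * ((coeff d Q : ℤ) : ℚ) := by
    intro Q d
    induction Q using MvPolynomial.induction_on' with
    | monomial e c =>
      have h1 : eval₂Hom (Int.castRingHom (MvPolynomial σ ℚ)) (fun i => C 2 ^ n i * X i)
          (monomial e c) = monomial e (2 ^ Finsupp.weight n e * (c : ℚ)) := by
        rw [eval₂Hom_monomial, monomial_eq, Finsupp.weight_apply, Finsupp.sum, Finsupp.prod,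
          Finsupp.prod, ← Finset.prod_pow_eq_pow_sum, map_mul, map_prod, mul_comm _ (C (c : ℚ)),
          mul_assoc, ← Finset.prod_mul_distrib, eq_intCast, map_intCast]
        congr 1
        refine Finset.prod_congr rfl fun i _ => ?_
        rw [mul_pow, ← pow_mul, map_pow, smul_eq_mul, mul_comm (e i)]
      rw [h1, coeff_monomial, coeff_monomial]
      split_ifs with he
      · rw [he]
      · simp
    | add Q Q' hQ hQ' => rw [map_add, coeff_add, hQ, hQ', coeff_add, Int.cast_add, mul_add]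
  intro d hd
  have h1 := congrArg (coeff d) h
  rw [key, ← map_pow, coeff_C_mul, toQ, coeff_map, eq_intCast] at h1
  have h2 : Finsupp.weight n d = m := pow_right_injective₀ (a := (2 : ℚ)) (by norm_num) (by norm_num)
    (mul_right_cancel₀ (Int.cast_ne_zero.2 hd) h1)
  rw [← h2, Finsupp.weight_apply, Finsupp.weight_apply, Finsupp.sum, Finsupp.sum, Nat.cast_sum]
  exact Finset.sum_congr rfl fun i _ => by simp

variable (p : ℕ) [hp : Fact p.Prime]

theorem cast_wz (i : ℕ) : ((p ^ (i + 1) - 1 : ℕ) : ℤ) = wz p i := by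
  rw [Nat.cast_sub (one_le_pp p _), wz]
  simp

theorem wz_pos (i : ℕ) : 0 < wz p i := by
  have := lt_pp p i
  rw [← cast_wz]
  omega

theorem mz_nonneg (J : ℕ →₀ ℕ) : 0 ≤ mz p J := by
  rw [mz, Finsupp.weight_apply]
  exact Finset.sum_nonneg fun i _ => nsmul_nonneg (wz_pos p i).le _

theorem eq_zero_of_mz {J : ℕ →₀ ℕ} (h : mz p J = 0) : J = 0 := by
  rw [mz, Finsupp.weight_apply, Finsupp.sum,
    Finset.sum_eq_zero_iff_of_nonneg fun i _ => nsmul_nonneg (wz_pos p i).le _] at h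
  ext i
  by_contra hi
  have h1 := h i (Finsupp.mem_support_iff.2 hi)
  rw [nsmul_eq_mul, mul_eq_zero] at h1
  rcases h1 with h1 | h1
  · exact hi (by exact_mod_cast h1)
  · exact (wz_pos p i).ne' h1

/-- the unit `2` -/
def uTwo (σ : Type) : (MvPolynomial σ ℚ)ˣ := Units.map (C : ℚ →+* MvPolynomial σ ℚ).toMonoidHom
  (Units.mk0 2 two_ne_zero)

theorem etaU_hom (i : ℕ) : IsWeightedHomogeneous (Sum.elim (wz p) (wz p)) (etaU p i) (wz p i) := by
  have h := hom_of_scale (Sum.elim (fun k => p ^ (k + 1) - 1) fun k => p ^ (k + 1) - 1)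
    (etaU p i) (p ^ (i + 1) - 1) (by
      have h1 := congrFun (eta_scale p (uTwo (ℕ ⊕ ℕ)) (fun k => X (Sum.inl k))
        fun k => X (Sum.inr k)) i
      have h2 : ev2 (fun k => X (Sum.inl k)) (fun k => X (Sum.inr k)) = toQ (ℕ ⊕ ℕ) :=
        MvPolynomial.ringHom_ext (fun r => by simp) fun j => by cases j <;> simp [toQ]
      rw [eta, eta, h2] at h1
      refine Eq.trans ?_ h1
      rw [ev2]
      congr 2
      funext j
      cases j <;> rfl)
  rw [cast_wz] at h
  convert h using 1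
  funext j
  cases j <;> exact (cast_wz p _).symm

theorem delU_hom (i : ℕ) :
    IsWeightedHomogeneous (Sum.elim (Sum.elim (wz p) (wz p)) (wz p)) (delU p i) (wz p i) := by
  have h := hom_of_scale (Sum.elim (Sum.elim (fun k => p ^ (k + 1) - 1) fun k => p ^ (k + 1) - 1)
    fun k => p ^ (k + 1) - 1) (delU p i) (p ^ (i + 1) - 1) (by
      have h1 := congrFun (del_scale p (uTwo ((ℕ ⊕ ℕ) ⊕ ℕ)) (fun k => X (Sum.inl (Sum.inl k)))
        (fun k => X (Sum.inl (Sum.inr k))) fun k => X (Sum.inr k)) i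
      have h2 : ev3 (fun k => X (Sum.inl (Sum.inl k))) (fun k => X (Sum.inl (Sum.inr k)))
          (fun k => X (Sum.inr k)) = toQ ((ℕ ⊕ ℕ) ⊕ ℕ) :=
        MvPolynomial.ringHom_ext (fun r => by simp) fun j => by
          rcases j with (j | j) | j <;> simp [toQ]
      rw [del, del, h2] at h1
      refine Eq.trans ?_ h1
      rw [ev3]
      congr 2
      funext j
      rcases j with (j | j) | j <;> rfl)
  rw [cast_wz] at h
  convert h using 1
  funext j
  rcases j with (j | j) | j <;> exact (cast_wz p _).symm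

variable {B : Type} [CommRing B] (G : Gd B)

theorem Gd.eta_mem {v t : ℕ → B} (hv : ∀ i, v i ∈ G.𝒜 (wz p i)) (ht : ∀ i, t i ∈ G.𝒜 (wz p i))
    (i : ℕ) : eta p v t i ∈ G.𝒜 (wz p i) :=
  G.eval₂_mem_of_hom _ G.intCast_mem (fun j => by
    cases j
    exacts [hv _, ht _]) (etaU_hom p i)

theorem Gd.del_mem {v t t' : ℕ → B} (hv : ∀ i, v i ∈ G.𝒜 (wz p i))
    (ht : ∀ i, t i ∈ G.𝒜 (wz p i)) (ht' : ∀ i, t' i ∈ G.𝒜 (wz p i)) (i : ℕ) :
    del p v t t' i ∈ G.𝒜 (wz p i) :=
  G.eval₂_mem_of_hom _ G.intCast_mem (fun j => by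
    rcases j with (j | j) | j
    exacts [hv _, ht _, ht' _]) (delU_hom p i)

end Univ

section Av

variable (p : ℕ) [hp : Fact p.Prime] (k : Type) [CommRing k]

/-- the grading of `k[v]` -/
def gA : Gd (Av k) where
  𝒜 w := (weightedHomogeneousSubmodule k (wz p) w).toAddSubgroup
  one_mem := isWeightedHomogeneous_one k (wz p)
  mul_mem := fun ha hb => IsWeightedHomogeneous.mul ha hb

/-- the grading of `k[v][t]` -/
def gG : Gd (Gm k) := (gA p k).poly p

variable {k}

omit hp in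
theorem mem_gA {w : ℤ} {a : Av k} : a ∈ (gA p k).𝒜 w ↔ IsWeightedHomogeneous (wz p) a w := Iff.rfl

omit hp in
theorem mem_gG {w : ℤ} {γ : Gm k} :
    γ ∈ (gG p k).𝒜 w ↔ ∀ L, IsWeightedHomogeneous (wz p) (coeff L γ) (w - mz p L) := Iff.rfl

theorem hom_neg {w : ℤ} (hw : w < 0) {a : Av k} (ha : IsWeightedHomogeneous (wz p) a w) : a = 0 :=
  MvPolynomial.ext _ _ fun d => ha.coeff_eq_zero d fun h => by
    have := mz_nonneg p d
    rw [mz, h] at this
    omega

omit hp in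
theorem constantCoeff_hom {w : ℤ} (hw : w ≠ 0) {a : Av k}
    (ha : IsWeightedHomogeneous (wz p) a w) : constantCoeff a = 0 :=
  ha.coeff_eq_zero 0 fun h => hw (by rw [← h, map_zero])

theorem eq_C_of_hom {a : Av k} (ha : IsWeightedHomogeneous (wz p) a 0) :
    a = C (constantCoeff a) := by
  classical
  refine MvPolynomial.ext _ _ fun d => ?_
  rw [coeff_C]
  split_ifs with h
  · subst h
    rfl
  · exact ha.coeff_eq_zero d fun h' => h (eq_zero_of_mz p h').symm

theorem gG_neg {w : ℤ} (hw : w < 0) {γ : Gm k} (h : γ ∈ (gG p k).𝒜 w) : γ = 0 :=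
  MvPolynomial.ext _ _ fun L => hom_neg p (by have := mz_nonneg p L; omega) (h L)

/-- **the right unit is homogeneous** -/
theorem etaR_mem {w : ℤ} {a : Av k} (ha : IsWeightedHomogeneous (wz p) a w) :
    etaR p k a ∈ (gG p k).𝒜 w :=
  (gG p k).eval₂_mem_of_hom ((C : Av k →+* Gm k).comp C)
    (fun r => (gA p k).C_mem p (a := C r) (isWeightedHomogeneous_C (wz p) r))
    ((gG p k).eta_mem p (fun i => (gA p k).C_mem p (isWeightedHomogeneous_X k (wz p) i))
      ((gA p k).X_mem p)) ha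

/-- **the coproduct is homogeneous** -/
theorem RG_mem {w : ℤ} {γ : Gm k} (h : γ ∈ (gG p k).𝒜 w) :
    RG p k γ ∈ ((gG p k).poly p).𝒜 w :=
  ((gG p k).poly p).eval₂_mem _ (((gG p k).poly p).del_mem p
    (fun i => (gG p k).C_mem p ((gA p k).C_mem p (isWeightedHomogeneous_X k (wz p) i)))
    (fun i => (gG p k).C_mem p ((gA p k).X_mem p i)) ((gG p k).X_mem p))
    fun d => (gG p k).C_mem p ((gA p k).C_mem p (h d))

omit hp in
theorem monomial_mem_gG (J : ℕ →₀ ℕ) : (monomial J 1 : Gm k) ∈ (gG p k).𝒜 (mz p J) :=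
  (gA p k).monomial_mem p (gA p k).one_mem J (zero_add _).symm

/-- only monomials of bounded weight occur in the coproduct -/
theorem mz_le_of_RG {w : ℤ} {γ : Gm k} (h : γ ∈ (gG p k).𝒜 w) {L : ℕ →₀ ℕ}
    (hL : coeff L (RG p k γ) ≠ 0) : mz p L ≤ w := by
  by_contra hlt
  exact hL (gG_neg p (by omega) (RG_mem p h L))

theorem mz_le_of_etaR {w : ℤ} {a : Av k} (ha : IsWeightedHomogeneous (wz p) a w) {L : ℕ →₀ ℕ}
    (hL : coeff L (etaR p k a) ≠ 0) : mz p L ≤ w := by
  by_contra hlt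
  exact hL (hom_neg p (by omega) (etaR_mem p ha L))

/-- **the action is homogeneous** -/
theorem actG_hom {ξ : (ℕ →₀ ℕ) → Av k} {u w : ℤ}
    (hξ : ∀ L, IsWeightedHomogeneous (wz p) (ξ L) (mz p L + u)) {γ : Gm k}
    (h : γ ∈ (gG p k).𝒜 w) : actG p ξ γ ∈ (gG p k).𝒜 (w + u) :=
  (gG p k).lin_mem p (fun L => etaR_mem p (hξ L)) (RG_mem p h)

theorem act0_hom {ξ : (ℕ →₀ ℕ) → Av k} {u w : ℤ}
    (hξ : ∀ L, IsWeightedHomogeneous (wz p) (ξ L) (mz p L + u)) {a : Av k}
    (ha : IsWeightedHomogeneous (wz p) a w) :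
    IsWeightedHomogeneous (wz p) (act0 p ξ a) (w + u) :=
  (gA p k).lin_mem p hξ (etaR_mem p ha)

end Av

end Vale.Agent.P236O
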