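import Vale.Agent.P236O.Ctr
import Vale.Agent.P236O.Wt

/-!
# P236, block OP: the contraction and the exact lift

`contrStmt p : ContrStmt p` and `liftStmt p : LiftStmt p`.
-/

noncomputable section

namespace Vale.Agent.P236O

open Vale.Agent.P236A Vale.Agent.P236B MvPolynomial Module

variable (p : ℕ) [hp : Fact p.Prime] {ι : Type} [Fintype ι] [DecidableEq ι] (Γ : Gens ι)

section Basis

variable (ι) in
/-- the basis `t ^ J g` -/
def bs (B : Type) [CommRing B] : Basis (Σ _ : ι, ℕ →₀ ℕ) B (ι → MvPolynomial ℕ B) :=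
  Pi.basis fun _ => basisMonomials ℕ B

variable {B B' : Type} [CommRing B] [CommRing B']

theorem bs_apply (x : Σ _ : ι, ℕ →₀ ℕ) : bs ι B x = bv x.1 x.2 := by
  rw [bs, Pi.basis_apply, coe_basisMonomials, bv]

omit [DecidableEq ι] in
theorem bs_repr (y : ι → MvPolynomial ℕ B) (x : Σ _ : ι, ℕ →₀ ℕ) :
    (bs ι B).repr y x = coeff x.2 (y x.1) := by
  rw [bs, Pi.basis_repr]
  rfl

variable (ι) in
/-- change of the coefficients -/
def rdL (φ : B →+* B') : (ι → MvPolynomial ℕ B) →ₛₗ[φ] (ι → MvPolynomial ℕ B') where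
  toFun y g := map φ (y g)
  map_add' y y' := funext fun g => map_add _ _ _
  map_smul' a y := funext fun g => by
    rw [Pi.smul_apply, Pi.smul_apply, ← C_mul', ← C_mul', map_mul, map_C]

theorem rdL_bs (φ : B →+* B') (x : Σ _ : ι, ℕ →₀ ℕ) : rdL ι φ (bs ι B x) = bs ι B' x := by
  rw [bs_apply, bs_apply]
  funext g
  change map φ (bv x.1 x.2 g) = _
  by_cases h : g = x.1
  · subst h
    rw [bv, bv, Pi.single_eq_same, Pi.single_eq_same, map_monomial, map_one]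
  · rw [bv, bv, Pi.single_eq_of_ne h, Pi.single_eq_of_ne h, map_zero]

omit [Fintype ι] in
theorem smul_bv_zero (a : B) (g : ι) : a • (bv g 0 : ι → MvPolynomial ℕ B) = Pi.single g (C a) := by
  rw [bv, ← Pi.single_smul, smul_monomial, smul_eq_mul, mul_one]
  rfl

end Basis

variable (k : Type) [CommRing k]

/-- the bigrading of the resolution -/
def grΓ : Gr (Av k) (Σ _ : ι, ℕ →₀ ℕ) where
  𝒜 := (gA p k).𝒜
  one_mem := (gA p k).one_mem
  mul_mem := (gA p k).mul_mem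
  neg := fun h ha => hom_neg p h ha
  ω x := mz p x.2 + Γ.wt x.1
  ω_nonneg _ := add_nonneg (mz_nonneg p _) (Nat.cast_nonneg _)
  deg x := Γ.deg x.1
  deg_nonneg _ := Nat.cast_nonneg _

variable {k}

omit [Fintype ι] [DecidableEq ι] in
theorem grΓ_ω (x : Σ _ : ι, ℕ →₀ ℕ) : (grΓ p Γ k).ω x = mz p x.2 + Γ.wt x.1 := rfl

omit [Fintype ι] [DecidableEq ι] in
theorem grΓ_deg (x : Σ _ : ι, ℕ →₀ ℕ) : (grΓ p Γ k).deg x = Γ.deg x.1 := rfl

/-- the differential of the resolution as a linear map -/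
abbrev XL (δ : Mat ι (Av k)) : (ι → Gm k) →ₗ[Av k] (ι → Gm k) := XB p (RingHom.id _) δ

theorem XL_bs (δ : Mat ι (Av k)) (x : Σ _ : ι, ℕ →₀ ℕ) :
    XL p δ (bs ι (Av k) x) = fun g' => actG p (δ x.1 g') (monomial x.2 1) := by
  rw [bs_apply, bv, XB_single]
  simp only [actB_id]

variable {p Γ} in
theorem hm_XL {δ : Mat ι (Av k)} (hδ : HomD p Γ δ) :
    Hm (grΓ p Γ k) (bs ι (Av k)) 1 (XL p δ) := fun x y => by
  rw [bs_repr, XL_bs]
  constructor
  · refine (gA p k).cast (actG_hom p (u := Γ.wt x.1 - Γ.wt y.1) (fun L => ?_)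
      (monomial_mem_gG p x.2) y.2) ?_
    · rw [← add_sub_assoc]
      exact hδ.wt _ _ _
    · rw [grΓ_ω, grΓ_ω]
      ring
  · intro h
    have h1 : δ x.1 y.1 = fun _ => 0 := funext fun L => hδ.deg _ _ _ fun h' => h (by
      rw [grΓ_deg, grΓ_deg, h']
      push_cast
      rfl)
    beta_reduce
    rw [h1, ← actB_id, actB_zero_left, coeff_zero]

variable {p Γ} in
theorem XL_unit {δ : Mat ι (Av k)} (hδ : HomD p Γ δ) : XL p δ (bs ι (Av k) ⟨Γ.g0, 0⟩) = 0 := by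
  rw [XL_bs]
  funext g'
  change actG p (δ Γ.g0 g') (C 1) = 0
  rw [← actB_id, actB_C, hδ.unit, map_zero, mul_zero]

theorem actB_eq_zero {B : Type} [CommRing B] (x : Av k →+* B) {ξ : (ℕ →₀ ℕ) → Av k} {J : ℕ →₀ ℕ}
    (h : ∀ L, mz p L ≤ mz p J → etaB p x (ξ L) = 0) : actB p x ξ (monomial J 1) = 0 := by
  rw [actB_monomial, actG, map_lin]
  refine lin_eq_zero fun L hL => ?_
  rw [map_etaR]
  refine h L (mz_le_of_RG p (monomial_mem_gG p (k := k) J) fun h0 => hL ?_)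
  rw [coeff_map, h0, map_zero]

theorem XB_XB_bs {B : Type} [CommRing B] (x : Av k →+* B) {δ : Mat ι (Av k)}
    {y : Σ _ : ι, ℕ →₀ ℕ}
    (h : ∀ g'' L, mz p L ≤ mz p y.2 → etaB p x (RR p δ δ y.1 g'' L) = 0) :
    XB p x δ (XB p x δ (bs ι B y)) = 0 := by
  rw [XB_XB, bs_apply, bv, XB_single]
  exact funext fun g'' => actB_eq_zero p x (h g'')

theorem hom_of_Sp {B : Type} [CommRing B] {s : ℕ} {w : ℤ} {y : ι → MvPolynomial ℕ B}
    (hy : y ∈ Sp (bs ι B) fun x => (grΓ p Γ k).deg x = s ∧ (grΓ p Γ k).ω x = w) :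
    Hom p Γ s w y := fun g => by
  constructor
  · intro J hJ
    by_contra hne
    refine hJ ((bs_repr y ⟨g, J⟩).symm.trans (mem_Sp.1 hy ⟨g, J⟩ fun h => hne ?_))
    rw [← h.2, grΓ_ω, add_sub_cancel_right, mz]
  · intro hg
    refine MvPolynomial.ext _ _ fun J => ?_
    exact (bs_repr y ⟨g, J⟩).symm.trans (mem_Sp.1 hy ⟨g, J⟩ fun h => hg (by
      have := h.1
      rw [grΓ_deg] at this
      exact_mod_cast this))

omit hp in
theorem mem_span_of_red {m : ℕ} [Fact p.Prime] (red : ZMod m →+* ZMod p) {c : ZMod m}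
    (hc : red c = 0) : ∃ c' : ZMod m, c = p * c' := by
  obtain ⟨n, rfl⟩ := ZMod.intCast_surjective c
  rw [map_intCast, ZMod.intCast_zmod_eq_zero_iff_dvd] at hc
  obtain ⟨n', rfl⟩ := hc
  exact ⟨n', by push_cast; rfl⟩

variable {p Γ} in
/-- The contraction, with the weakest hypotheses on the square of the differential. -/
theorem exists_contr_XL {m e : ℕ} (hm : m = p ^ (e + 1)) (red : ZMod m →+* ZMod p)
    {δ : Mat ι (Av (ZMod m))} (hδ : HomD p Γ δ) {S S' : ℕ} {N : ℤ} (hS : S ≤ S')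
    (hXX : ∀ g g'' J, Γ.deg g + 1 ≤ S → mz p J + Γ.wt g ≤ N → RR p δ δ g g'' J = 0)
    (hDD : ∀ g g'' J, mz p J + Γ.wt g ≤ N → red (constantCoeff (RR p δ δ g g'' J)) = 0)
    (hex : ExactP p Γ (bar p red δ) S' N) :
    ∃ (H : (ι → Gm (ZMod m)) →ₗ[Av (ZMod m)] (ι → Gm (ZMod m)))
      (c : (ι → Gm (ZMod m)) →ₗ[Av (ZMod m)] Av (ZMod m)),
      Hm (grΓ p Γ (ZMod m)) (bs ι (Av (ZMod m))) (-1) H ∧
      (∀ x, c (bs ι (Av (ZMod m)) x) ∈ (grΓ p Γ (ZMod m)).𝒜 ((grΓ p Γ (ZMod m)).ω x) ∧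
        ((grΓ p Γ (ZMod m)).deg x ≠ 0 → c (bs ι (Av (ZMod m)) x) = 0)) ∧
      ∀ x, (grΓ p Γ (ZMod m)).deg x ≤ S → (grΓ p Γ (ZMod m)).ω x ≤ N →
        XL p δ (H (bs ι (Av (ZMod m)) x)) + H (XL p δ (bs ι (Av (ZMod m)) x)) +
          c (bs ι (Av (ZMod m)) x) • bs ι (Av (ZMod m)) ⟨Γ.g0, 0⟩ = bs ι (Av (ZMod m)) x := by
  let φ : Av (ZMod m) →+* ZMod p := red.comp constantCoeff
  have hφ : ∀ i, φ (X i) = 0 := fun i => by simp [φ]
  have hD : ∀ y, XB p φ δ y = XP p (bar p red δ) y := fun y => XB_P p hφ δ y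
  refine exists_contr (bM := bs ι (ZMod p)) (bar := φ) (red := rdL ι φ) (rdL_bs φ)
    (fun i a hi ha => ?_) (fun c => ?_) (𝔭 := Ideal.span {(p : Av (ZMod m))}) (e := e + 1) ?_
    (fun a ha h => ?_) (D := XB p φ δ) (hm_XL hδ) (fun z => ?_) ?_ ?_ (XL_unit hδ)
    (fun x hx hx' => ?_) (fun x _ hx' => ?_) (fun w hw y hy h => ?_)
    fun s w hs hs' hw y hy h => ?_
  · rw [RingHom.comp_apply, constantCoeff_hom p hi.ne' ha, map_zero]
  · obtain ⟨a, rfl⟩ := ZMod.ringHom_surjective red c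
    exact ⟨C a, isWeightedHomogeneous_C (wz p) a, by simp [φ]⟩
  · rw [Ideal.span_singleton_pow, Ideal.span_singleton_eq_bot, ← Nat.cast_pow, ← hm,
      ← map_natCast C, ZMod.natCast_self, map_zero]
  · obtain ⟨c', hc'⟩ := mem_span_of_red p red h
    rw [eq_C_of_hom p ha, hc', map_mul, map_natCast]
    exact Ideal.mul_mem_right _ _ (Ideal.mem_span_singleton_self _)
  · exact map_XB p φ (RingHom.id _) δ z
  · rw [grΓ_deg, Γ.deg_g0, Nat.cast_zero]
  · rw [grΓ_ω, Γ.wt_g0, mz_zero, Nat.cast_zero, add_zero]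
  · rw [grΓ_deg] at hx
    rw [grΓ_ω] at hx'
    exact XB_XB_bs p _ fun g'' L hL => by rw [hXX _ _ _ (by omega) (by omega), map_zero]
  · rw [grΓ_ω] at hx'
    refine XB_XB_bs p _ fun g'' L hL => ?_
    rw [etaB_P p (ZMod.natCast_self p) hφ, RingHom.comp_apply, hDD _ _ _ (by omega), map_zero]
  · obtain ⟨c, hc⟩ := hex.zero w y hw (hom_of_Sp p Γ (s := 0) hy) (by rw [← hD, h])
    exact ⟨c, by rw [bs_apply, smul_bv_zero, hc]⟩
  · obtain ⟨n, rfl⟩ : ∃ n : ℕ, s = ((n + 1 : ℕ) : ℤ) := ⟨(s - 1).toNat, by push_cast; omega⟩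
    obtain ⟨y', -, hy'⟩ := hex.succ n w y (by omega) hw (hom_of_Sp p Γ hy) (by rw [← hD, h])
    exact ⟨y', by rw [hD, hy']⟩

/-- **The contraction of the resolution.** -/
theorem contrStmt : ContrStmt p := by
  intro ι _ _ Γ m e hm red δ S N hδ hsq hex
  obtain ⟨H, c, hH, hc, heq⟩ := exists_contr_XL hm red hδ le_rfl
    (fun g g'' J _ h => hsq g g'' J h) (fun g g'' J h => by
      rw [hsq g g'' J h, map_zero, map_zero]) hex
  refine ⟨⟨H, c, fun g J g' J' => ?_, fun g J g' h => ?_, fun g J => ?_, fun g J h => ?_,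
    fun g J h h' => ?_⟩⟩
  · have := (hH ⟨g, J⟩ ⟨g', J'⟩).1
    rwa [bs_repr, bs_apply, grΓ_ω, grΓ_ω, ← sub_sub] at this
  · refine MvPolynomial.ext _ _ fun J' => ?_
    have := (hH ⟨g, J⟩ ⟨g', J'⟩).2 (by
      rw [grΓ_deg, grΓ_deg]
      dsimp only
      omega)
    rwa [bs_repr, bs_apply] at this
  · have := (hc ⟨g, J⟩).1
    rwa [bs_apply] at this
  · have := (hc ⟨g, J⟩).2 (by
      rw [grΓ_deg]
      exact_mod_cast h)
    rwa [bs_apply] at this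
  · have := heq ⟨g, J⟩ (by
      rw [grΓ_deg]
      exact_mod_cast h) h'
    rwa [bs_apply, bs_apply, smul_bv_zero, XB_id, XB_id] at this

/-! ### the exact lift -/

/-- the functional with values `δ g g' J` -/
def DL (δ : Mat ι (Av k)) (g' : ι) : (ι → Gm k) →ₗ[Av k] Av k :=
  ∑ g, lin (δ g g') ∘ₗ LinearMap.proj g

omit hp [DecidableEq ι] in
theorem DL_apply (δ : Mat ι (Av k)) (g' : ι) (y : ι → Gm k) :
    DL δ g' y = ∑ g, lin (δ g g') (y g) := by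
  simp [DL, LinearMap.sum_apply]

theorem DL_bs (δ : Mat ι (Av k)) (g' : ι) (x : Σ _ : ι, ℕ →₀ ℕ) :
    DL δ g' (bs ι (Av k) x) = δ x.1 g' x.2 := by
  rw [DL_apply, bs_apply, bv, Finset.sum_eq_single x.1, Pi.single_eq_same, lin_one]
  · intro g _ h
    rw [Pi.single_eq_of_ne h, map_zero]
  · intro h
    exact absurd (Finset.mem_univ _) h

theorem DL_XL (δ' δ : Mat ι (Av k)) (g'' : ι) (x : Σ _ : ι, ℕ →₀ ℕ) :
    DL δ' g'' (XL p δ (bs ι (Av k) x)) = RR p δ' δ x.1 g'' x.2 := by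
  rw [DL_apply, XL_bs, RR]

omit [DecidableEq ι] in
variable {p Γ} in
theorem sqIn_congr {δ δ' : Mat ι (Av k)} {𝔞 : ℕ → Ideal (Av k)} {N : ℤ} (hδ : HomD p Γ δ)
    (hmono : Monotone 𝔞) (hinv : ∀ s, Inv p (𝔞 s)) (hsq : SqIn p Γ δ 𝔞 N)
    (h : ∀ g g' J, δ' g g' J - δ g g' J ∈ 𝔞 (Γ.deg g)) : SqIn p Γ δ' 𝔞 N := by
  intro g g'' J hJ
  rw [← sub_add_cancel (RR p δ' δ' g g'' J) (RR p δ δ g g'' J)]
  refine add_mem ?_ (hsq g g'' J hJ)
  rw [RR, RR, ← Finset.sum_sub_distrib]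
  refine sum_mem fun g' _ => ?_
  have e : lin (δ' g' g'') (actG p (δ' g g') (monomial J 1)) -
      lin (δ g' g'') (actG p (δ g g') (monomial J 1)) =
      lin (δ' g' g'') (actG p (fun L => δ' g g' L - δ g g' L) (monomial J 1)) +
      lin (fun L => δ' g' g'' L - δ g' g'' L) (actG p (δ g g') (monomial J 1)) := by
    rw [lin_sub, ← actB_id p fun L => δ' g g' L - δ g g' L, actB_sub_left, actB_id, actB_id,
      map_sub]
    ring
  rw [e]
  refine add_mem (hmono (Nat.le_succ _) (lin_mem_left (actG_mem p (hinv _) fun L _ => h _ _ _))) ?_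
  by_cases hg : Γ.deg g' = Γ.deg g + 1
  · rw [← hg]
    exact lin_mem fun L _ => h _ _ _
  · rw [show δ g g' = fun _ => 0 from funext fun L => hδ.deg _ _ _ hg, ← actB_id,
      actB_zero_left, map_zero]
    exact zero_mem _

variable {p Γ} in
/-- One step of the exact lift. -/
theorem lift_step {m e : ℕ} (hm : m = p ^ (e + 1)) (red : ZMod m →+* ZMod p)
    {δ : Mat ι (Av (ZMod m))} (hδ : HomD p Γ δ) {𝔞 : ℕ → Ideal (Av (ZMod m))} {s S : ℕ} {N : ℤ}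
    (hs : s ≤ S) (hbar : ∀ s, ∀ a ∈ 𝔞 s, red (constantCoeff a) = 0) (hsq : SqIn p Γ δ 𝔞 N)
    (hXX : ∀ g g'' J, Γ.deg g < s → mz p J + Γ.wt g ≤ N → RR p δ δ g g'' J = 0)
    (hex : ExactP p Γ (bar p red δ) S N) :
    ∃ δ' : Mat ι (Av (ZMod m)), HomD p Γ δ' ∧ (∀ g g' J, δ' g g' J - δ g g' J ∈ 𝔞 (Γ.deg g)) ∧
      ∀ g g'' J, Γ.deg g < s + 1 → mz p J + Γ.wt g ≤ N → RR p δ' δ' g g'' J = 0 := by
  obtain ⟨H, c, hH, -, heq⟩ := exists_contr_XL hm red hδ hs hXX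
    (fun g g'' J h => hbar _ _ (hsq g g'' J h)) hex
  have hX := hm_XL hδ
  let Y : Mat ι (Av (ZMod m)) := fun g g' J => if Γ.deg g = s + 1 ∧ mz p J + Γ.wt g ≤ N then
    DL δ g' (XL p δ (H (bs ι (Av (ZMod m)) ⟨g, J⟩))) else 0
  have hY0 : ∀ g g' J, Γ.deg g ≠ s + 1 → Y g g' J = 0 := fun g g' J h => if_neg fun h' => h h'.1
  have hY1 : ∀ g g' J, Γ.deg g = s + 1 → mz p J + Γ.wt g ≤ N →
      Y g g' J = DL δ g' (XL p δ (H (bs ι (Av (ZMod m)) ⟨g, J⟩))) := fun g g' J h h' =>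
    if_pos ⟨h, h'⟩
  refine ⟨fun g g' J => δ g g' J - Y g g' J, ⟨fun g g' J => (hδ.wt g g' J).sub ?_,
    fun g g' J h => ?_, fun g' => ?_⟩, fun g g' J => ?_, fun g g'' J hg hJ => ?_⟩
  · by_cases h : Γ.deg g = s + 1 ∧ mz p J + Γ.wt g ≤ N
    · rw [hY1 _ _ _ h.1 h.2]
      refine functional_mem (G := grΓ p Γ (ZMod m)) (fun x => ?_) (hX.map (hH ⟨g, J⟩))
      rw [DL_bs]
      exact hδ.wt _ _ _
    · rw [show Y g g' J = 0 from if_neg h]
      exact isWeightedHomogeneous_zero _ _ _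
  · rw [hδ.deg _ _ _ h, zero_sub, neg_eq_zero]
    by_cases h' : Γ.deg g = s + 1 ∧ mz p J + Γ.wt g ≤ N
    · rw [hY1 _ _ _ h'.1 h'.2]
      refine Sp_zero (fun x hx => ?_) (Hz_le_Sp (hX.map (hH ⟨g, J⟩)))
      rw [DL_bs]
      refine hδ.deg _ _ _ fun h'' => h ?_
      have := hx.1
      rw [grΓ_deg, grΓ_deg] at this
      dsimp only at this
      omega
    · exact if_neg h'
  · rw [hδ.unit, hY0 _ _ _ (by rw [Γ.deg_g0]; omega), sub_zero]
  · rw [sub_sub_cancel_left, neg_mem_iff]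
    by_cases h : Γ.deg g = s + 1 ∧ mz p J + Γ.wt g ≤ N
    · rw [hY1 _ _ _ h.1 h.2]
      refine Sp_map_mem (f := DL δ g' ∘ₗ XL p δ) (N := 𝔞 (Γ.deg g)) (fun x hx => ?_)
        (Hz_le_Sp (hH ⟨g, J⟩))
      obtain ⟨h1, h2⟩ := hx
      rw [grΓ_deg, grΓ_deg] at h1
      rw [grΓ_ω, grΓ_ω] at h2
      dsimp only at h1 h2
      rw [LinearMap.comp_apply, DL_XL, show Γ.deg g = Γ.deg x.1 + 1 by omega]
      exact hsq _ _ _ (by omega)
    · rw [show Y g g' J = 0 from if_neg h]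
      exact zero_mem _
  · have h1 : XL p (fun g g' J => δ g g' J - Y g g' J) (bs ι (Av (ZMod m)) ⟨g, J⟩) =
        XL p δ (bs ι (Av (ZMod m)) ⟨g, J⟩) := by
      rw [XL_bs, XL_bs]
      funext g'
      congr 1
      funext L
      rw [hY0 _ _ _ (by dsimp only; omega), sub_zero]
    have h2 := Hz_le_Sp (hX ⟨g, J⟩)
    rw [← DL_XL p _ _ g'' ⟨g, J⟩, h1]
    by_cases hgs : Γ.deg g = s
    · rw [Sp_ext (g := DL δ g'' - DL δ g'' ∘ₗ XL p δ ∘ₗ H) (fun x hx => ?_) h2]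
      · have h3 := heq ⟨g, J⟩ (by rw [grΓ_deg, hgs]) hJ
        have h4 : XL p δ (XL p δ (H (bs ι (Av (ZMod m)) ⟨g, J⟩))) = 0 := by
          refine Sp_zero (f := XL p δ ∘ₗ XL p δ) (fun x hx => ?_) (Hz_le_Sp (hH ⟨g, J⟩))
          obtain ⟨h5, h6⟩ := hx
          rw [grΓ_deg, grΓ_deg] at h5
          rw [grΓ_ω, grΓ_ω] at h6
          dsimp only at h5 h6
          exact XB_XB_bs p _ fun g' L hL => by rw [hXX _ _ _ (by omega) (by omega), map_zero]
        have h5 := congrArg (XL p δ) h3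
        rw [map_add, map_add, h4, map_smul, XL_unit hδ, smul_zero, zero_add, add_zero] at h5
        rw [LinearMap.sub_apply, LinearMap.comp_apply, LinearMap.comp_apply, h5, sub_self]
      · obtain ⟨h5, h6⟩ := hx
        rw [grΓ_deg, grΓ_deg] at h5
        rw [grΓ_ω, grΓ_ω] at h6
        dsimp only at h5 h6
        rw [DL_bs, LinearMap.sub_apply, DL_bs, hY1 _ _ _ (by omega) (by omega)]
        rfl
    · rw [Sp_ext (g := DL δ g'') (fun x hx => ?_) h2, DL_XL]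
      · exact hXX _ _ _ (by dsimp only; omega) hJ
      · have h5 := hx.1
        rw [grΓ_deg, grΓ_deg] at h5
        dsimp only at h5
        rw [DL_bs, DL_bs, hY0 _ _ _ (by omega), sub_zero]

/-- **The exact lift.** -/
theorem liftStmt : LiftStmt p := by
  intro ι _ _ Γ m e hm red δ 𝔞 S N hδ hS hmono hinv hbar hsq hex
  have key : ∀ s ≤ S + 1, ∃ δ' : Mat ι (Av (ZMod m)), HomD p Γ δ' ∧
      (∀ g g' J, δ' g g' J - δ g g' J ∈ 𝔞 (Γ.deg g)) ∧
      ∀ g g'' J, Γ.deg g < s → mz p J + Γ.wt g ≤ N → RR p δ' δ' g g'' J = 0 := by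
    intro s
    induction s with
    | zero => exact fun _ => ⟨δ, hδ, fun g g' J => by rw [sub_self]; exact zero_mem _,
        fun g g'' J h => absurd h (Nat.not_lt_zero _)⟩
    | succ s ih =>
      intro hs
      obtain ⟨δ₁, h1, h2, h3⟩ := ih (by omega)
      have hb : bar p red δ₁ = bar p red δ := by
        funext g g' J
        rw [bar, bar, ← sub_eq_zero, ← map_sub, ← map_sub]
        exact hbar _ _ (h2 g g' J)
      obtain ⟨δ₂, h4, h5, h6⟩ := lift_step hm red h1 (by omega : s ≤ S) hbar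
        (sqIn_congr hδ hmono hinv hsq h2) h3 (hb ▸ hex)
      refine ⟨δ₂, h4, fun g g' J => ?_, h6⟩
      rw [← sub_add_sub_cancel _ (δ₁ g g' J)]
      exact add_mem (h5 g g' J) (h2 g g' J)
  obtain ⟨δ', h1, h2, h3⟩ := key (S + 1) le_rfl
  refine ⟨δ', h1, fun g g'' J hJ => ?_, h2⟩
  by_cases hg : Γ.deg g < S + 1
  · exact h3 g g'' J hg hJ
  · refine Finset.sum_eq_zero fun g' _ => ?_
    rw [show δ' g g' = fun _ => 0 from funext fun L => h1.deg _ _ _ (by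
      have := hS g'
      omega), ← actB_id, actB_zero_left, map_zero]

end Vale.Agent.P236O
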