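import Mathlib

/-!
# P236, block OP: contractions of graded complexes of free modules

`L` is a free module over a nonnegatively graded ring `A` with a bigraded basis.  If a homogeneous
endomorphism `X` of degree one reduces to an exact complex of vector spaces, then `X` has a
homogeneous contraction.
-/

noncomputable section

namespace Vale.Agent.P236O

open Module

/-- A nonnegatively graded ring and a bigraded index set. -/
structure Gr (A β : Type) [CommRing A] where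
  /-- the homogeneous elements -/
  𝒜 : ℤ → AddSubgroup A
  one_mem : (1 : A) ∈ 𝒜 0
  mul_mem : ∀ {i j : ℤ} {a a' : A}, a ∈ 𝒜 i → a' ∈ 𝒜 j → a * a' ∈ 𝒜 (i + j)
  neg : ∀ {i : ℤ} {a : A}, i < 0 → a ∈ 𝒜 i → a = 0
  /-- the weight of a basis vector -/
  ω : β → ℤ
  ω_nonneg : ∀ x, 0 ≤ ω x
  /-- the degree of a basis vector -/
  deg : β → ℤ
  deg_nonneg : ∀ x, 0 ≤ deg x

section Span

variable {A β L : Type} [CommRing A] [AddCommGroup L] [Module A L] (b : Basis β A L)

/-- the span of some of the basis vectors -/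
def Sp (P : β → Prop) : Submodule A L := Submodule.span A (b '' {x | P x})

variable {b}

theorem mem_Sp {P : β → Prop} {z : L} : z ∈ Sp b P ↔ ∀ y, ¬ P y → b.repr z y = 0 := by
  rw [Sp, Basis.mem_span_image]
  constructor
  · intro h y hy
    by_contra hne
    exact hy (h (Finsupp.mem_support_iff.2 hne))
  · intro h y hy
    by_contra hne
    exact Finsupp.mem_support_iff.1 hy (h y hne)

theorem basis_mem_Sp {P : β → Prop} {x : β} (hx : P x) : b x ∈ Sp b P :=
  Submodule.subset_span ⟨x, hx, rfl⟩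

theorem Sp_mono {P Q : β → Prop} (h : ∀ x, P x → Q x) {z : L} (hz : z ∈ Sp b P) : z ∈ Sp b Q :=
  mem_Sp.2 fun y hy => mem_Sp.1 hz y fun hP => hy (h y hP)

theorem Sp_eq_zero {P : β → Prop} (h : ∀ x, ¬ P x) {z : L} (hz : z ∈ Sp b P) : z = 0 :=
  b.ext_elem fun y => by rw [mem_Sp.1 hz y (h y), map_zero, Finsupp.zero_apply]

theorem Sp_map_mem {L' : Type} [AddCommGroup L'] [Module A L'] {P : β → Prop} {f : L →ₗ[A] L'}
    {N : Submodule A L'} (h : ∀ x, P x → f (b x) ∈ N) {z : L} (hz : z ∈ Sp b P) : f z ∈ N := by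
  have : Sp b P ≤ N.comap f := by
    refine Submodule.span_le.2 ?_
    rintro _ ⟨x, hx, rfl⟩
    exact h x hx
  exact this hz

theorem Sp_ext {L' : Type} [AddCommGroup L'] [Module A L'] {P : β → Prop} {f g : L →ₗ[A] L'}
    (h : ∀ x, P x → f (b x) = g (b x)) {z : L} (hz : z ∈ Sp b P) : f z = g z := by
  refine LinearMap.eqOn_span ?_ hz
  rintro _ ⟨x, hx, rfl⟩
  exact h x hx

theorem Sp_zero {L' : Type} [AddCommGroup L'] [Module A L'] {P : β → Prop} {f : L →ₗ[A] L'}
    (h : ∀ x, P x → f (b x) = 0) {z : L} (hz : z ∈ Sp b P) : f z = 0 :=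
  Sp_ext (g := 0) h hz

theorem eq_sum_repr (z : L) : z = ∑ y ∈ (b.repr z).support, b.repr z y • b y := by
  conv_lhs => rw [← b.linearCombination_repr z]
  rfl

open Classical in
variable (b) in
/-- the projection to `Sp b P` -/
def pr (P : β → Prop) : L →ₗ[A] L := b.constr A fun x => if P x then b x else 0

theorem pr_of {P : β → Prop} {x : β} (hx : P x) : pr b P (b x) = b x := by
  simp [pr, hx]

theorem pr_of_not {P : β → Prop} {x : β} (hx : ¬ P x) : pr b P (b x) = 0 := by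
  simp [pr, hx]

theorem pr_mem (P : β → Prop) (z : L) : pr b P z ∈ Sp b P := by
  refine Sp_map_mem (b := b) (P := fun _ => True) (fun x _ => ?_)
    (mem_Sp.2 fun y hy => (hy trivial).elim)
  by_cases hx : P x
  · rw [pr_of hx]
    exact basis_mem_Sp hx
  · rw [pr_of_not hx]
    exact zero_mem _

theorem pr_eq_self {P : β → Prop} {z : L} (hz : z ∈ Sp b P) : pr b P z = z :=
  Sp_ext (g := LinearMap.id) (fun _ hx => pr_of hx) hz

theorem pr_eq_zero {P Q : β → Prop} (h : ∀ x, Q x → ¬ P x) {z : L} (hz : z ∈ Sp b Q) :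
    pr b P z = 0 :=
  Sp_zero (fun x hx => pr_of_not (h x hx)) hz

end Span

section Field

variable {F β M : Type} [Field F] [AddCommGroup M] [Module F M] {b : Basis β F M}

/-- A homogeneous map has a homogeneous inner inverse. -/
theorem exists_sigma (deg ω : β → ℤ) {D : M →ₗ[F] M}
    (hD : ∀ x, D (b x) ∈ Sp b fun y => deg y = deg x + 1 ∧ ω y = ω x) :
    ∃ σ : M →ₗ[F] M, (∀ x, σ (b x) ∈ Sp b fun y => deg y = deg x - 1 ∧ ω y = ω x) ∧
      ∀ z, D (σ (D z)) = D z := by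
  obtain ⟨g, hg⟩ := D.rangeRestrict.exists_rightInverse_of_surjective
    (LinearMap.range_eq_top.2 D.surjective_rangeRestrict)
  obtain ⟨σ₁, hσ₁⟩ := g.exists_extend
  have h1 : ∀ z, D (σ₁ (D z)) = D z := fun z => by
    have h2 := LinearMap.congr_fun hσ₁ ⟨D z, z, rfl⟩
    have h3 := congrArg Subtype.val (LinearMap.congr_fun hg ⟨D z, z, rfl⟩)
    simp only [LinearMap.comp_apply, Submodule.subtype_apply] at h2
    rw [h2]
    exact h3
  have hc : ∀ (s w : ℤ) (z : M), D (pr b (fun y => deg y = s ∧ ω y = w) z) =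
      pr b (fun y => deg y = s + 1 ∧ ω y = w) (D z) := fun s w z => by
    refine LinearMap.congr_fun (f := D ∘ₗ pr b fun y => deg y = s ∧ ω y = w)
      (g := pr b (fun y => deg y = s + 1 ∧ ω y = w) ∘ₗ D) (b.ext fun x => ?_) z
    simp only [LinearMap.comp_apply]
    by_cases hx : deg x = s ∧ ω x = w
    · rw [pr_of (P := fun y => deg y = s ∧ ω y = w) hx, pr_eq_self]
      exact Sp_mono (fun y hy => ⟨by rw [hy.1, hx.1], by rw [hy.2, hx.2]⟩) (hD x)
    · rw [pr_of_not (P := fun y => deg y = s ∧ ω y = w) hx, map_zero, pr_eq_zero _ (hD x)]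
      intro y hy hy'
      exact hx ⟨by omega, by omega⟩
  refine ⟨b.constr F fun x => pr b (fun y => deg y = deg x - 1 ∧ ω y = ω x) (σ₁ (b x)),
    fun x => ?_, fun z => ?_⟩
  · rw [Basis.constr_basis]
    exact pr_mem _ _
  · refine LinearMap.congr_fun (f := D ∘ₗ (b.constr F fun x =>
      pr b (fun y => deg y = deg x - 1 ∧ ω y = ω x) (σ₁ (b x))) ∘ₗ D) (g := D)
      (b.ext fun x => ?_) z
    simp only [LinearMap.comp_apply]
    rw [Sp_ext (g := pr b (fun y => deg y = deg x ∧ ω y = ω x) ∘ₗ σ₁) _ (hD x),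
      LinearMap.comp_apply, hc, h1, pr_eq_self (hD x)]
    intro y hy
    rw [Basis.constr_basis, LinearMap.comp_apply, hy.1, hy.2, add_sub_cancel_right]

end Field

section Graded

variable {A β L : Type} [CommRing A] [AddCommGroup L] [Module A L] (G : Gr A β) (b : Basis β A L)

/-- homogeneous elements of degree `s` and weight `w` -/
def Hz (s w : ℤ) : AddSubgroup L where
  carrier := {z | ∀ y, b.repr z y ∈ G.𝒜 (w - G.ω y) ∧ (G.deg y ≠ s → b.repr z y = 0)}
  zero_mem' := fun y => by simp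
  add_mem' := fun {z z'} hz hz' y => by
    rw [map_add, Finsupp.add_apply]
    exact ⟨add_mem (hz y).1 (hz' y).1, fun h => by rw [(hz y).2 h, (hz' y).2 h, add_zero]⟩
  neg_mem' := fun {z} hz y => by
    rw [map_neg, Finsupp.neg_apply]
    exact ⟨neg_mem (hz y).1, fun h => by rw [(hz y).2 h, neg_zero]⟩

/-- homogeneous endomorphisms of degree `e` and weight zero -/
def Hm (e : ℤ) (f : L →ₗ[A] L) : Prop := ∀ x, f (b x) ∈ Hz G b (G.deg x + e) (G.ω x)

variable {G b}

theorem mem_Hz {s w : ℤ} {z : L} : z ∈ Hz G b s w ↔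
    ∀ y, b.repr z y ∈ G.𝒜 (w - G.ω y) ∧ (G.deg y ≠ s → b.repr z y = 0) := Iff.rfl

theorem smul_mem_Hz {i s w w' : ℤ} {a : A} {z : L} (ha : a ∈ G.𝒜 i) (hz : z ∈ Hz G b s w)
    (hw : w' = i + w) : a • z ∈ Hz G b s w' := fun y => by
  rw [map_smul, Finsupp.smul_apply, smul_eq_mul]
  refine ⟨?_, fun h => by rw [(hz y).2 h, mul_zero]⟩
  have := G.mul_mem ha (hz y).1
  rwa [hw, add_sub_assoc]

theorem basis_mem_Hz (x : β) : b x ∈ Hz G b (G.deg x) (G.ω x) := fun y => by
  by_cases h : x = y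
  · subst h
    rw [Basis.repr_self, Finsupp.single_eq_same, sub_self]
    exact ⟨G.one_mem, fun h => (h rfl).elim⟩
  · rw [Basis.repr_self, Finsupp.single_eq_of_ne (Ne.symm h)]
    exact ⟨zero_mem _, fun _ => rfl⟩

theorem Hz_le_Sp {s w : ℤ} {z : L} (hz : z ∈ Hz G b s w) :
    z ∈ Sp b fun y => G.deg y = s ∧ G.ω y ≤ w := mem_Sp.2 fun y hy => by
  by_cases h : G.deg y = s
  · exact G.neg (by
      have : ¬ G.ω y ≤ w := fun h' => hy ⟨h, h'⟩
      omega) (hz y).1
  · exact (hz y).2 h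

theorem Hz_neg {s w : ℤ} (hs : s < 0) {z : L} (hz : z ∈ Hz G b s w) : z = 0 :=
  Sp_eq_zero (fun x hx => by have := G.deg_nonneg x; omega) (Hz_le_Sp hz)

theorem Hm.map {e s w : ℤ} {f : L →ₗ[A] L} (hf : Hm G b e f) {z : L} (hz : z ∈ Hz G b s w) :
    f z ∈ Hz G b (s + e) w := by
  rw [eq_sum_repr (b := b) z, map_sum]
  refine sum_mem fun y hy => ?_
  have hd : G.deg y = s := by
    by_contra h
    exact Finsupp.mem_support_iff.1 hy ((hz y).2 h)
  rw [map_smul, ← hd]
  exact smul_mem_Hz (hz y).1 (hf y) (by ring)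

/-- homogeneous functionals -/
theorem functional_mem {s w u : ℤ} {φ : L →ₗ[A] A} (hφ : ∀ x, φ (b x) ∈ G.𝒜 (G.ω x - u))
    {z : L} (hz : z ∈ Hz G b s w) : φ z ∈ G.𝒜 (w - u) := by
  rw [eq_sum_repr (b := b) z, map_sum]
  refine sum_mem fun y _ => ?_
  rw [map_smul, smul_eq_mul]
  have := G.mul_mem (hz y).1 (hφ y)
  rwa [sub_add_sub_cancel] at this

theorem Hm.comp {e e' e'' : ℤ} {f g : L →ₗ[A] L} (hf : Hm G b e f) (hg : Hm G b e' g)
    (he : e'' = e' + e) : Hm G b e'' (f * g) := fun x => by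
  have := hf.map (hg x)
  rwa [he, ← add_assoc]

theorem Hm.add {e : ℤ} {f g : L →ₗ[A] L} (hf : Hm G b e f) (hg : Hm G b e g) :
    Hm G b e (f + g) := fun x => add_mem (hf x) (hg x)

theorem Hm.sub {e : ℤ} {f g : L →ₗ[A] L} (hf : Hm G b e f) (hg : Hm G b e g) :
    Hm G b e (f - g) := fun x => sub_mem (hf x) (hg x)

theorem Hm.one : Hm G b 0 (1 : L →ₗ[A] L) := fun x => by
  rw [add_zero]
  exact basis_mem_Hz x

theorem Hm.pow {f : L →ₗ[A] L} (hf : Hm G b 0 f) (n : ℕ) : Hm G b 0 (f ^ n) := by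
  induction n with
  | zero => exact Hm.one
  | succ n ih =>
    rw [pow_succ]
    exact ih.comp hf (by simp)

theorem Hm.geom {f : L →ₗ[A] L} (hf : Hm G b 0 f) (n : ℕ) :
    Hm G b 0 (∑ i ∈ Finset.range n, f ^ i) := fun x => by
  rw [LinearMap.sum_apply]
  exact sum_mem fun i _ => hf.pow i x

theorem Hm.sp {e : ℤ} {f : L →ₗ[A] L} (hf : Hm G b e f) {P Q : β → Prop}
    (h : ∀ x y, P x → G.deg y = G.deg x + e → G.ω y ≤ G.ω x → Q y) {z : L} (hz : z ∈ Sp b P) :
    f z ∈ Sp b Q :=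
  Sp_map_mem (fun x hx => Sp_mono (fun y hy => h x y hx hy.1 hy.2) (Hz_le_Sp (hf x))) hz

/-- A homogeneous endomorphism whose constant coefficients lie in a nilpotent ideal is
nilpotent in bounded weights. -/
theorem Hm.nilp {ν : L →ₗ[A] L} (hν : Hm G b 0 ν) {𝔭 : Ideal A} {e : ℕ} (h𝔭 : 𝔭 ^ e = ⊥)
    {S N : ℤ} (h : ∀ x y, G.deg x ≤ S → G.ω x ≤ N → G.ω y = G.ω x → b.repr (ν (b x)) y ∈ 𝔭) :
    ∃ n : ℕ, ∀ x, G.deg x ≤ S → G.ω x ≤ N → (ν ^ n) (b x) = 0 := by
  let Fil : ℕ → Submodule A L := fun n => Sp b fun y => G.deg y ≤ S ∧ G.ω y < n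
  have hF : ∀ (n : ℕ) (z : L), z ∈ Fil n → ν z ∈ Fil n := fun n z hz =>
    hν.sp (fun x y hx h1 h2 => ⟨by omega, by omega⟩) hz
  have h1 : ∀ n : ℕ, (n : ℤ) ≤ N → ∀ z ∈ Fil (n + 1), ν z ∈ 𝔭 • Fil (n + 1) ⊔ Fil n := by
    intro n hn z hz
    refine Sp_map_mem (fun x hx => ?_) hz
    rw [eq_sum_repr (b := b) (ν (b x))]
    refine sum_mem fun y hy => ?_
    have hxy : G.deg y = G.deg x + 0 ∧ G.ω y ≤ G.ω x := by
      by_contra hne
      exact Finsupp.mem_support_iff.1 hy (mem_Sp.1 (Hz_le_Sp (hν x)) y hne)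
    have hx2 := hx.2
    push_cast at hx2
    by_cases hw : G.ω y = G.ω x
    · refine Submodule.mem_sup_left (Submodule.smul_mem_smul (h x y hx.1 (by omega) hw) ?_)
      exact basis_mem_Sp ⟨by omega, by push_cast; omega⟩
    · refine Submodule.mem_sup_right (Submodule.smul_mem _ _ ?_)
      exact basis_mem_Sp ⟨by omega, by omega⟩
  have h2 : ∀ n : ℕ, (n : ℤ) ≤ N → ∀ j : ℕ, ∀ z ∈ Fil (n + 1),
      (ν ^ j) z ∈ 𝔭 ^ j • Fil (n + 1) ⊔ Fil n := by
    intro n hn j
    induction j with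
    | zero =>
      intro z hz
      rw [pow_zero, pow_zero, Ideal.one_eq_top, Submodule.top_smul]
      exact Submodule.mem_sup_left hz
    | succ j ih =>
      intro z hz
      obtain ⟨u, hu, v, hv, huv⟩ := Submodule.mem_sup.1 (ih z hz)
      rw [pow_succ' ν, Module.End.mul_apply, ← huv, map_add]
      refine add_mem ?_ (Submodule.mem_sup_right (hF n v hv))
      refine Submodule.smul_induction_on hu (fun a ha u hu => ?_) fun u u' hu hu' => ?_
      · obtain ⟨u₁, hu₁, v₁, hv₁, huv₁⟩ := Submodule.mem_sup.1 (h1 n hn u hu)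
        rw [map_smul, ← huv₁, smul_add, pow_succ, Submodule.mul_smul]
        exact add_mem (Submodule.mem_sup_left (Submodule.smul_mem_smul ha hu₁))
          (Submodule.mem_sup_right (Submodule.smul_mem _ _ hv₁))
      · rw [map_add]
        exact add_mem hu hu'
  have h3 : ∀ n : ℕ, (n : ℤ) ≤ N + 1 → ∀ z ∈ Fil n, (ν ^ (e * n)) z = 0 := by
    intro n
    induction n with
    | zero =>
      intro _ z hz
      rw [Sp_eq_zero (fun x hx => by have := G.ω_nonneg x; omega) hz, map_zero]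
    | succ n ih =>
      intro hn z hz
      push_cast at hn
      have h4 := h2 n (by omega) e z hz
      rw [h𝔭, Submodule.bot_smul, bot_sup_eq] at h4
      rw [mul_add, mul_one, pow_add, Module.End.mul_apply]
      exact ih (by omega) _ h4
  refine ⟨e * (N + 1).toNat, fun x hx hx' => h3 _ ?_ _ (basis_mem_Sp ⟨hx, ?_⟩)⟩
  · have := G.ω_nonneg x
    omega
  · have := G.ω_nonneg x
    omega

end Graded

end Vale.Agent.P236O
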