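import Vale.Agent.P236O.Abs

/-!
# P236, block OP: the contraction of a graded complex with exact reduction
-/

noncomputable section

namespace Vale.Agent.P236O

open Module

variable {A β L F M : Type} [CommRing A] [AddCommGroup L] [Module A L] [Field F] [AddCommGroup M]
  [Module F M] {G : Gr A β} {b : Basis β A L} {bM : Basis β F M} {bar : A →+* F}
  {red : L →ₛₗ[bar] M}

theorem repr_red (hred : ∀ x, red (b x) = bM x) (z : L) (y : β) :
    bM.repr (red z) y = bar (b.repr z y) := by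
  have h : (bM.coord y).comp red = bar.toSemilinearMap.comp (b.coord y) := b.ext fun x => by
    simp only [LinearMap.comp_apply, hred, Basis.coord_apply, Basis.repr_self,
      RingHom.coe_toSemilinearMap]
    by_cases hxy : x = y
    · subst hxy
      simp
    · simp [Finsupp.single_eq_of_ne (Ne.symm hxy)]
  exact LinearMap.congr_fun h z

theorem red_mem_Sp (hred : ∀ x, red (b x) = bM x)
    (hpos : ∀ (i : ℤ) (a : A), 0 < i → a ∈ G.𝒜 i → bar a = 0) {s w : ℤ} {z : L}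
    (hz : z ∈ Hz G b s w) : red z ∈ Sp bM fun y => G.deg y = s ∧ G.ω y = w :=
  mem_Sp.2 fun y hy => by
    rw [repr_red hred]
    by_cases hd : G.deg y = s
    · have hw : G.ω y ≠ w := fun h => hy ⟨hd, h⟩
      rcases lt_or_gt_of_ne hw with h | h
      · exact hpos _ _ (by omega) (hz y).1
      · rw [G.neg (by omega) (hz y).1, map_zero]
    · rw [(hz y).2 hd, map_zero]

/-- Homogeneous maps of vector spaces lift. -/
theorem exists_lift (hred : ∀ x, red (b x) = bM x)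
    (hsec : ∀ c : F, ∃ a ∈ G.𝒜 0, bar a = c) {e : ℤ} {σ : M →ₗ[F] M}
    (hσ : ∀ x, σ (bM x) ∈ Sp bM fun y => G.deg y = G.deg x + e ∧ G.ω y = G.ω x) :
    ∃ τ : L →ₗ[A] L, Hm G b e τ ∧ ∀ z, red (τ z) = σ (red z) := by
  choose sec hsec1 hsec2 using hsec
  refine ⟨b.constr A fun x => ∑ y ∈ (bM.repr (σ (bM x))).support,
    sec (bM.repr (σ (bM x)) y) • b y, fun x => ?_, fun z => ?_⟩
  · rw [Basis.constr_basis]
    refine sum_mem fun y hy => ?_
    have h : G.deg y = G.deg x + e ∧ G.ω y = G.ω x := by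
      by_contra hne
      exact Finsupp.mem_support_iff.1 hy (mem_Sp.1 (hσ x) y hne)
    rw [← h.1]
    exact smul_mem_Hz (hsec1 _) (basis_mem_Hz y) (by rw [h.2, zero_add])
  · refine LinearMap.congr_fun (f := red.comp (b.constr A fun x =>
      ∑ y ∈ (bM.repr (σ (bM x))).support, sec (bM.repr (σ (bM x)) y) • b y))
      (g := σ.comp red) (b.ext fun x => ?_) z
    simp only [LinearMap.comp_apply, Basis.constr_basis, map_sum, LinearMap.map_smulₛₗ, hred, hsec2]
    exact (eq_sum_repr _).symm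

/-- **The contraction.** -/
theorem exists_contr (hred : ∀ x, red (b x) = bM x)
    (hpos : ∀ (i : ℤ) (a : A), 0 < i → a ∈ G.𝒜 i → bar a = 0)
    (hsec : ∀ c : F, ∃ a ∈ G.𝒜 0, bar a = c) {𝔭 : Ideal A} {e : ℕ} (h𝔭 : 𝔭 ^ e = ⊥)
    (hker : ∀ a ∈ G.𝒜 0, bar a = 0 → a ∈ 𝔭) {X : L →ₗ[A] L} {D : M →ₗ[F] M} (hX : Hm G b 1 X)
    (hXD : ∀ z, red (X z) = D (red z)) {x₀ : β} (hd₀ : G.deg x₀ = 0) (hω₀ : G.ω x₀ = 0)
    (hX₀ : X (b x₀) = 0) {S N : ℤ}
    (hXX : ∀ x, G.deg x + 1 ≤ S → G.ω x ≤ N → X (X (b x)) = 0)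
    (hDD : ∀ x, G.deg x ≤ S → G.ω x ≤ N → D (D (bM x)) = 0)
    (ex0 : ∀ w ≤ N, ∀ y ∈ Sp bM fun x => G.deg x = 0 ∧ G.ω x = w, D y = 0 → ∃ c : F, y = c • bM x₀)
    (ex1 : ∀ s w : ℤ, 0 < s → s ≤ S → w ≤ N → ∀ y ∈ Sp bM fun x => G.deg x = s ∧ G.ω x = w,
      D y = 0 → ∃ y', D y' = y) :
    ∃ (H : L →ₗ[A] L) (c : L →ₗ[A] A), Hm G b (-1) H ∧
      (∀ x, c (b x) ∈ G.𝒜 (G.ω x) ∧ (G.deg x ≠ 0 → c (b x) = 0)) ∧
      ∀ x, G.deg x ≤ S → G.ω x ≤ N → X (H (b x)) + H (X (b x)) + c (b x) • b x₀ = b x := by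
  have hD : ∀ x, D (bM x) ∈ Sp bM fun y => G.deg y = G.deg x + 1 ∧ G.ω y = G.ω x := fun x => by
    rw [← hred, ← hXD]
    exact red_mem_Sp hred hpos (hX x)
  obtain ⟨σ, hσ, hDσ⟩ := exists_sigma G.deg G.ω hD
  obtain ⟨τ, hτ, hτσ⟩ := exists_lift (G := G) (e := -1) hred hsec hσ
  -- the approximate contraction
  let π : L →ₗ[A] L := (b.coord x₀).smulRight (b x₀)
  have hπ : ∀ z, π z = b.repr z x₀ • b x₀ := fun z => rfl
  have hπm : Hm G b 0 π := fun x => by
    rw [hπ]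
    by_cases hx : x = x₀
    · subst hx
      rw [Basis.repr_self, Finsupp.single_eq_same, one_smul, add_zero]
      exact basis_mem_Hz x
    · rw [Basis.repr_self, Finsupp.single_eq_of_ne (Ne.symm hx), zero_smul]
      exact zero_mem _
  let q : L →ₗ[A] L := 1 - τ * X
  have hq : Hm G b 0 q := Hm.one.sub (hτ.comp hX (by norm_num))
  let h : L →ₗ[A] L := τ * q
  have hh : Hm G b (-1) h := hτ.comp hq (by norm_num)
  let ν : L →ₗ[A] L := 1 - (X * h + h * X + π * q)
  have hν : Hm G b 0 ν := Hm.one.sub (((hX.comp hh (by norm_num)).add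
    (hh.comp hX (by norm_num))).add (hπm.comp hq (by norm_num)))
  have hνa : ∀ z, ν z = z - (X (h z) + h (X z) + b.repr (q z) x₀ • b x₀) := fun z => rfl
  have hqa : ∀ z, q z = z - τ (X z) := fun z => rfl
  have hha : ∀ z, h z = τ (q z) := fun z => rfl
  have hrq : ∀ z, red (q z) = red z - σ (D (red z)) := fun z => by
    rw [hqa, map_sub, hτσ, hXD]
  have hred0 : ∀ x, G.deg x ≤ S → G.ω x ≤ N → red (ν (b x)) = 0 := by
    intro x hx hx'
    have h1 : red (q (b x)) ∈ Sp bM fun y => G.deg y = G.deg x + 0 ∧ G.ω y = G.ω x :=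
      red_mem_Sp hred hpos (hq x)
    have h2 : D (red (q (b x))) = 0 := by rw [hrq, map_sub, hDσ, sub_self]
    have h3 : D (σ (red (q (b x)))) + bM.repr (red (q (b x))) x₀ • bM x₀ = red (q (b x)) := by
      rcases (G.deg_nonneg x).eq_or_lt with h0 | h0
      · have h4 : σ (red (q (b x))) = 0 := Sp_zero (fun y hy => Sp_eq_zero (fun y' hy' => by
          have := G.deg_nonneg y'
          omega) (hσ y)) h1
        obtain ⟨c, hc⟩ := ex0 _ hx' _ (Sp_mono (fun y hy => ⟨by omega, hy.2⟩) h1) h2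
        rw [h4, map_zero, zero_add, hc, map_smul, Finsupp.smul_apply, Basis.repr_self,
          Finsupp.single_eq_same, smul_eq_mul, mul_one]
      · obtain ⟨y', hy'⟩ := ex1 _ _ h0 hx hx' _ (Sp_mono (fun y hy => ⟨by omega, hy.2⟩) h1) h2
        rw [mem_Sp.1 h1 x₀ (fun h => by omega), zero_smul, add_zero, ← hy', hDσ]
    rw [hνa, map_sub, map_add, map_add, hXD, hha, hτσ, hha, hτσ, hrq (X _), hXD, hred,
      hDD x hx hx', map_zero, sub_zero, LinearMap.map_smulₛₗ, ← repr_red hred, hred,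
      add_right_comm, h3, hrq, hred]
    abel
  obtain ⟨n, hn⟩ := hν.nilp h𝔭 (S := S) (N := N) fun x y hx hx' hxy => by
    refine hker _ ?_ ?_
    · have := (hν x y).1
      rwa [hxy, sub_self] at this
    · rw [← repr_red hred, hred0 x hx hx', map_zero, Finsupp.zero_apply]
  let W : L →ₗ[A] L := ∑ i ∈ Finset.range n, ν ^ i
  have hW : Hm G b 0 W := hν.geom n
  -- `ν` commutes with `X`
  have hXX' : ∀ z ∈ Sp b fun x => G.deg x + 1 ≤ S ∧ G.ω x ≤ N, X (X z) = 0 := fun z hz =>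
    Sp_zero (f := X * X) (fun x hx => hXX x hx.1 hx.2) hz
  have hc1 : ∀ z ∈ Sp b fun x => G.deg x + 1 ≤ S ∧ G.ω x ≤ N, X (ν z) = ν (X z) := by
    intro z hz
    refine Sp_ext (f := X * ν) (g := ν * X) (fun x hx => ?_) hz
    have h1 : X (X (h (b x))) = 0 := hXX' _ (Sp_mono (fun y hy => ⟨by omega, by omega⟩)
      (Hz_le_Sp (hh x)))
    have h2 : b.repr (q (X (b x))) x₀ = 0 := (hq.map (hX x) x₀).2 (by
      have := G.deg_nonneg x
      omega)
    rw [Module.End.mul_apply, Module.End.mul_apply, hνa, hνa, map_sub, map_add, map_add, h1,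
      map_smul, hX₀, hXX x hx.1 hx.2, h2, map_zero, smul_zero, zero_smul, zero_add, add_zero,
      add_zero]
  have hc2 : ∀ (i : ℕ), ∀ z ∈ Sp b fun x => G.deg x + 1 ≤ S ∧ G.ω x ≤ N,
      X ((ν ^ i) z) = (ν ^ i) (X z) := by
    intro i
    induction i with
    | zero => exact fun z _ => rfl
    | succ i ih =>
      intro z hz
      rw [pow_succ, Module.End.mul_apply, Module.End.mul_apply, ← hc1 z hz]
      exact ih _ (hν.sp (fun x y hx h1 h2 => ⟨by omega, by omega⟩) hz)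
  have hc3 : ∀ z ∈ Sp b fun x => G.deg x + 1 ≤ S ∧ G.ω x ≤ N, X (W z) = W (X z) := by
    intro z hz
    simp only [W, LinearMap.sum_apply, map_sum]
    exact Finset.sum_congr rfl fun i _ => hc2 i z hz
  -- `W` preserves the line of the unit
  have hl1 : ∃ a : A, ν (b x₀) = a • b x₀ := by
    refine ⟨1 - b.repr (q (b x₀)) x₀, ?_⟩
    rw [hνa, hX₀, Hz_neg (by omega) (hh x₀), map_zero, map_zero, zero_add, zero_add, sub_smul,
      one_smul]
  have hl2 : ∃ a : A, W (b x₀) = a • b x₀ := by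
    obtain ⟨a, ha⟩ := hl1
    have h1 : ∀ i : ℕ, (ν ^ i) (b x₀) = a ^ i • b x₀ := fun i => by
      induction i with
      | zero => rw [pow_zero, pow_zero, one_smul, Module.End.one_apply]
      | succ i ih => rw [pow_succ', Module.End.mul_apply, ih, map_smul, ha, smul_smul, pow_succ]
    refine ⟨∑ i ∈ Finset.range n, a ^ i, ?_⟩
    simp only [W, LinearMap.sum_apply, h1, Finset.sum_smul]
  obtain ⟨a, ha⟩ := hl2
  have hWπ : ∀ z, W (π z) = b.repr (W (π z)) x₀ • b x₀ := fun z => by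
    rw [hπ, map_smul, ha, smul_smul, map_smul, Finsupp.smul_apply, Basis.repr_self,
      Finsupp.single_eq_same, smul_eq_mul, mul_one]
  have hWq : Hm G b 0 (W * (π * q)) := hW.comp (hπm.comp hq (add_zero 0).symm) (add_zero 0).symm
  refine ⟨W * h, (b.coord x₀).comp (W * (π * q)), hW.comp hh (by norm_num), fun x => ⟨?_, ?_⟩,
    fun x hx hx' => ?_⟩
  · have := (hWq x x₀).1
    rwa [hω₀, sub_zero] at this
  · exact fun hx => (hWq x x₀).2 (by omega)
  · have h1 : W (b x - ν (b x)) = b x - (ν ^ n) (b x) :=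
      LinearMap.congr_fun (geom_sum_mul_neg ν n) (b x)
    rw [hn x hx hx', sub_zero, hνa, sub_sub_cancel, map_add, map_add, ← hπ] at h1
    have h2 : X (W (h (b x))) = W (X (h (b x))) :=
      hc3 _ (Sp_mono (fun y hy => ⟨by omega, by omega⟩) (Hz_le_Sp (hh x)))
    change X (W (h (b x))) + W (h (X (b x))) + b.repr (W (π (q (b x)))) x₀ • b x₀ = b x
    rw [h2, ← hWπ]
    exact h1

end Vale.Agent.P236O
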